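import Vale.Agent.P179.R2.H725.Rec
import Vale.Agent.P179.R2.H725.Below

/-!
# The number of ordinary characters at a central element, through the centralisers of the
`p`-elements
-/

namespace P179A0

open Subgroup Finset P179H524 P179A P179K P179R P179C P179N P179P P179Y P179H725

open P179X (pp IrrB)

open scoped Classical

universe u

/-- the weight conjecture for all blocks -/
def AW (p : ℕ) {k : Type*} [Field k] (red : integralClosure ℤ ℂ →+* k) : Prop :=
  ∀ (G : Type) [Group G] [Finite G] (B : MonoidAlgebra k G), IsBlock B →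
    numSimpleIn B = numWeightsIn p red B

variable {p : ℕ} [hp : Fact p.Prime] {k : Type u} [Field k] [IsAlgClosed k] [CharP k p]
  (red : integralClosure ℤ ℂ →+* k) {G : Type} [Group G] [Finite G]

/-- the weight conjecture at a central element -/
theorem AW.central {red : integralClosure ℤ ℂ →+* k} (h : AW p red) {e : MonoidAlgebra k G}
    (he : e ∈ Subalgebra.center k (MonoidAlgebra k G)) : numSimpleIn e = numW p red e := by
  obtain ⟨r, μ, hμ1, -⟩ := exists_L p (k := k) (G := G)
  rw [hμ1 e he, numW_eq_numWc red e he, numWc_eq_card p red he]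
  refine card_eq_of_blocks μ (fun q : Quot (P179H524.Weight.Conj (p := p) (G := G)) =>
      mu p red q.out) ⟨e, he⟩ ?_
  intro B hB _
  rw [← hμ1 B hB.1, ← numWc_eq_card p red hB.1, ← numWeightsIn_eq_numWc p red hB]
  exact h G B hB

/-- the number of the characters with central character `1` at `z` -/
noncomputable def nK {k : Type*} [Field k] (red : integralClosure ℤ ℂ →+* k) {G : Type*} [Group G]
    (z : G → k) : ℕ := Nat.card {χ : Irr G // lam red χ.1 z = 1}

omit hp [CharP k p] in
/-- the block of a character -/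
theorem exists_beta : ∃ β : Irr G → {B : MonoidAlgebra k G // IsBlock B},
    (∀ χ (z : MonoidAlgebra k G), z ∈ Subalgebra.center k (MonoidAlgebra k G) →
      lam red χ.1 (fun g => z.coeff g) = centralChar (β χ).1 z) ∧
    ∀ χ (B : {B : MonoidAlgebra k G // IsBlock B}), CharInBlock red χ.1 B.1 ↔ β χ = B := by
  have := Fintype.ofFinite G
  have hb : ∀ χ : Irr G, ∃ B : {B : MonoidAlgebra k G // IsBlock B},
      ∀ z, lamHom red χ.1 χ.2 z = centralChar B.1 z := by
    intro χ
    obtain ⟨B, hB, h⟩ := homBlockStmt (lamHom red χ.1 χ.2)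
    exact ⟨⟨B, hB⟩, h⟩
  choose β hβ using hb
  have h1 : ∀ χ (z : MonoidAlgebra k G), z ∈ Subalgebra.center k (MonoidAlgebra k G) →
      lam red χ.1 (fun g => z.coeff g) = centralChar (β χ).1 z := fun χ z hz => hβ χ ⟨z, hz⟩
  refine ⟨β, h1, fun χ B => ⟨fun h => ?_, fun h => ?_⟩⟩
  · have h2 := lam_eq_centralChar red B.2 χ.2 h ((P179C.mem_center_iff _).1 B.2.1)
    rw [mkF_coeff, centralChar_self _ B.2, h1 χ _ B.2.1, charBlockStmt _ _ (β χ).2 B.2] at h2
    by_contra hne
    rw [if_neg fun h' => hne (Subtype.ext h')] at h2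
    exact zero_ne_one h2
  · subst h
    rw [← inL_iff red (β χ).2 (l := fun z => lam red χ.1 z)]
    · intro z _
      rfl
    · intro z hz
      rw [← h1 χ _ (mkF_mem hz)]
      simp only [coeff_mkF]

omit hp [IsAlgClosed k] [CharP k p] [Finite G] in
theorem numSimpleIn_one : numSimpleIn (1 : MonoidAlgebra k G) = numSimple k G := by
  unfold numSimpleIn numSimple
  refine Nat.card_congr (Quot.congr (Equiv.subtypeUnivEquiv fun a => ?_) fun a b => Iff.rfl)
  unfold InBlock
  rw [map_one]

include p in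
theorem numSimpleIn_eq_sum [Fintype {B : MonoidAlgebra k G // IsBlock B}] {z : MonoidAlgebra k G}
    (hz : z ∈ Subalgebra.center k (MonoidAlgebra k G)) :
    numSimpleIn z = ∑ B : {B : MonoidAlgebra k G // IsBlock B},
      if centralChar B.1 z = 1 then numSimpleIn B.1 else 0 := by
  obtain ⟨r, μ, hμ1, -⟩ := exists_L p (k := k) (G := G)
  rw [hμ1 z hz, card_eq_sum μ ⟨z, hz⟩, ← Finset.sum_filter,
    Finset.sum_subtype (p := fun B : {B : MonoidAlgebra k G // IsBlock B} =>
      centralChar B.1 z = 1) _ (fun B => by simp)]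
  exact Finset.sum_congr rfl fun B _ => (hμ1 _ _).symm

omit hp in
theorem sum_reg_card [Fintype G] :
    ∑ g ∈ univ.filter (fun g : G => ¬ p ∣ orderOf g), Nat.card {x : G // x * g * x⁻¹ = g} =
      Nat.card {xy : G × G // Commute xy.1 xy.2 ∧ ¬ p ∣ orderOf xy.1} := by
  rw [Finset.sum_subtype (p := fun g : G => ¬ p ∣ orderOf g) _ (fun g => by simp),
    ← Nat.card_sigma]
  exact Nat.card_congr
    { toFun := fun s => ⟨(s.1.1, s.2.1), (mul_inv_eq_iff_eq_mul.1 s.2.2).symm, s.1.2⟩
      invFun := fun t => ⟨⟨t.1.1, t.2.2⟩, ⟨t.1.2, mul_inv_eq_iff_eq_mul.2 t.2.1.eq.symm⟩⟩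
      left_inv := fun _ => rfl
      right_inv := fun _ => rfl }

/-- **the number of simple modules is the norm of the characters on the `p`-regular elements** -/
theorem card_mul_numSimpleIn [Fintype G] {z : MonoidAlgebra k G}
    (hz : z ∈ Subalgebra.center k (MonoidAlgebra k G)) :
    (Nat.card G : ℂ) * numSimpleIn z = ∑ g ∈ univ.filter (fun g : G => ¬ p ∣ orderOf g),
      ∑ χ : Irr G, if lam red χ.1 (fun g => z.coeff g) = 1 then χ.1 g * χ.1 g⁻¹ else 0 := by
  have hfin := P179R.finite_blocks p (k := k) (G := G)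
  have := Fintype.ofFinite {B : MonoidAlgebra k G // IsBlock B}
  obtain ⟨β, hβ1, hβ2⟩ := exists_beta (k := k) red (G := G)
  have h4 : ∀ B : {B : MonoidAlgebra k G // IsBlock B}, ∃ r : ℕ, numSimpleIn B.1 ≤ r ∧
      (r : ℂ) * Nat.card G = ∑ g ∈ univ.filter (fun g : G => ¬ p ∣ orderOf g),
        ∑ χ : Irr G, if β χ = B then χ.1 g * χ.1 g⁻¹ else 0 := by
    intro B
    obtain ⟨r, hr1, hr2⟩ := N3 p red B.2 (fun x y h => sec_orth p red B.1 x y h)
    refine ⟨r, hr1, ?_⟩
    rw [hr2]
    refine Finset.sum_congr rfl fun g _ => ?_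
    rw [sum_IrrB red B.1 (fun χ => χ g * χ g⁻¹)]
    refine Finset.sum_congr rfl fun χ _ => ?_
    simp only [hβ2]
  choose r hr1 hr2 using h4
  have key : ∀ (y : MonoidAlgebra k G), y ∈ Subalgebra.center k (MonoidAlgebra k G) →
      ((∑ B, if centralChar B.1 y = 1 then r B else 0 : ℕ) : ℂ) * Nat.card G =
      ∑ g ∈ univ.filter (fun g : G => ¬ p ∣ orderOf g),
        ∑ χ : Irr G, if lam red χ.1 (fun g => y.coeff g) = 1 then χ.1 g * χ.1 g⁻¹ else 0 := by
    intro y hy
    push_cast
    rw [Finset.sum_mul]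
    have h5 : ∀ B : {B : MonoidAlgebra k G // IsBlock B},
        (if centralChar B.1 y = 1 then (r B : ℂ) else 0) * Nat.card G =
        ∑ g ∈ univ.filter (fun g : G => ¬ p ∣ orderOf g), ∑ χ : Irr G,
          if β χ = B then (if lam red χ.1 (fun g => y.coeff g) = 1 then χ.1 g * χ.1 g⁻¹ else 0)
            else 0 := by
      intro B
      by_cases hB : centralChar B.1 y = 1
      · rw [if_pos hB, hr2]
        refine Finset.sum_congr rfl fun g _ => Finset.sum_congr rfl fun χ _ => ?_
        by_cases h : β χ = B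
        · rw [if_pos h, if_pos h, if_pos (by rw [hβ1 χ y hy, h, hB])]
        · rw [if_neg h, if_neg h]
      · rw [if_neg hB, zero_mul]
        refine (Finset.sum_eq_zero fun g _ => Finset.sum_eq_zero fun χ _ => ?_).symm
        by_cases h : β χ = B
        · rw [if_pos h, if_neg (by rw [hβ1 χ y hy, h]; exact hB)]
        · rw [if_neg h]
    rw [Finset.sum_congr rfl fun B _ => h5 B, Finset.sum_comm]
    refine Finset.sum_congr rfl fun g _ => ?_
    rw [Finset.sum_comm]
    refine Finset.sum_congr rfl fun χ _ => ?_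
    rw [Finset.sum_ite_eq, if_pos (Finset.mem_univ _)]
  have hone : ∀ B : {B : MonoidAlgebra k G // IsBlock B}, centralChar B.1 1 = 1 := by
    intro B
    obtain ⟨L, hL⟩ := blockHomStmt B.1 B.2
    have := hL 1
    rw [map_one] at this
    exact this.symm
  have hG : (Nat.card G : ℂ) ≠ 0 := by exact_mod_cast Nat.card_pos.ne'
  have htot : ∑ B, r B = ∑ B : {B : MonoidAlgebra k G // IsBlock B}, numSimpleIn B.1 := by
    have h1 := key 1 (one_mem _)
    have h2 := numSimpleIn_eq_sum (p := p) (k := k) (G := G) (one_mem _)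
    simp only [hone, if_true] at h1 h2
    have h3 : ∀ χ : Irr G, lam red χ.1 (fun g => (1 : MonoidAlgebra k G).coeff g) = 1 :=
      fun χ => by rw [hβ1 χ 1 (one_mem _), hone]
    simp only [h3, if_true, col_orth] at h1
    rw [← Nat.cast_sum, sum_reg_card, ← card_mul_numSimple p k G, ← numSimpleIn_one, h2,
      Nat.cast_mul, mul_comm] at h1
    exact_mod_cast mul_left_cancel₀ hG h1
  have heq : ∀ B, numSimpleIn B.1 = r B := fun B =>
    (Finset.sum_eq_sum_iff_of_le fun B _ => hr1 B).1 htot.symm B (Finset.mem_univ _)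
  rw [← key z hz, numSimpleIn_eq_sum (p := p) hz, mul_comm]
  simp only [heq]

omit [IsAlgClosed k] in
/-- the second main theorem at a class function -/
theorem kernel_at [Fintype G] (u : G) (hu : ∃ a : ℕ, u ^ p ^ a = 1) (H : Subgroup G)
    (hH : ∀ x, x ∈ H ↔ x * u = u * x) {z : G → k} (hz : IsCF z) (s : H) (hs : ¬ p ∣ orderOf s) :
    ∑ χ : Irr G, (if lam red χ.1 z = 1 then χ.1 (s * u) * χ.1 (s * u)⁻¹ else 0) =
      ∑ ψ : Irr H, (if lam red ψ.1 (fun h : H => z h) = 1 then ψ.1 s * ψ.1 s⁻¹ else 0) := by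
  let a : Irr G → ({y : G → k // IsCF y} → k) := fun χ y => lam red χ.1 y.1
  let b : Irr H → ({y : G → k // IsCF y} → k) := fun ψ y => lam red ψ.1 (fun h : H => y.1 h)
  let S : Finset ({y : G → k // IsCF y} → k) := univ.image a ∪ univ.image b
  have ha : ∀ χ ∈ (univ : Finset (Irr G)), a χ ∈ S := fun χ _ =>
    Finset.mem_union_left _ (Finset.mem_image_of_mem a (Finset.mem_univ χ))
  have hb : ∀ ψ ∈ (univ : Finset (Irr H)), b ψ ∈ S := fun ψ _ =>
    Finset.mem_union_right _ (Finset.mem_image_of_mem b (Finset.mem_univ ψ))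
  rw [← Finset.sum_fiberwise_of_maps_to ha, ← Finset.sum_fiberwise_of_maps_to hb]
  refine Finset.sum_congr rfl fun c _ => ?_
  let l : (G → k) → k := fun y => if h : IsCF y then c ⟨y, h⟩ else 0
  have h1 : ∀ χ : Irr G, InL red l χ.1 ↔ a χ = c := by
    intro χ
    constructor
    · intro h
      funext y
      have := h y.1 y.2
      simp only [l, dif_pos y.2] at this
      exact this
    · intro h y hy
      simp only [l, dif_pos hy]
      exact congrFun h ⟨y, hy⟩
  have h2 : ∀ ψ : Irr H, IndL red H l ψ.1 ↔ b ψ = c := by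
    intro ψ
    constructor
    · intro h
      funext y
      have := h y.1 y.2
      simp only [l, dif_pos y.2] at this
      exact this
    · intro h y hy
      simp only [l, dif_pos hy]
      exact congrFun h ⟨y, hy⟩
  have h3 := kernel_form p red u hu H hH l s s hs hs
  simp only [h1, h2] at h3
  rw [Finset.sum_filter, Finset.sum_filter]
  by_cases hc : c ⟨z, hz⟩ = 1
  · refine Eq.trans (Finset.sum_congr rfl fun χ _ => ?_) (h3.trans
      (Finset.sum_congr rfl fun ψ _ => ?_))
    · by_cases h : a χ = c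
      · rw [if_pos h, if_pos h, if_pos ((congrFun h ⟨z, hz⟩).trans hc)]
      · rw [if_neg h, if_neg h]
    · by_cases h : b ψ = c
      · rw [if_pos h, if_pos h, if_pos ((congrFun h ⟨z, hz⟩).trans hc)]
      · rw [if_neg h, if_neg h]
  · rw [Finset.sum_eq_zero, Finset.sum_eq_zero]
    · intro ψ _
      by_cases h : b ψ = c
      · rw [if_pos h, if_neg fun h' => hc ((congrFun h ⟨z, hz⟩).symm.trans h')]
      · rw [if_neg h]
    · intro χ _
      by_cases h : a χ = c
      · rw [if_pos h, if_neg fun h' => hc ((congrFun h ⟨z, hz⟩).symm.trans h')]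
      · rw [if_neg h]

/-- sums over the group, sorted by the `p`-part -/
theorem sum_by_pp [Fintype G] (F : G → ℂ) :
    ∑ x : G, F x = ∑ u ∈ univ.filter (fun u : G => ∃ a : ℕ, u ^ p ^ a = 1),
      ∑ s ∈ univ.filter (fun s : centralizer ({u} : Set G) => ¬ p ∣ orderOf s), F (s * u) := by
  rw [← Finset.sum_fiberwise_of_maps_to (s := univ)
    (t := univ.filter (fun u : G => ∃ a : ℕ, u ^ p ^ a = 1)) (g := pp p)
    (fun x _ => Finset.mem_filter.2 ⟨Finset.mem_univ _, pp_pow_eq_one x⟩)]
  refine Finset.sum_congr rfl fun u hu => ?_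
  rw [Finset.mem_filter] at hu
  symm
  have hpp : ∀ s : centralizer ({u} : Set G), ¬ p ∣ orderOf s → pp p ((s : G) * u) = u := by
    intro s hs
    have h1 : (s : G) * u = u * s := mem_centralizer_singleton_iff.1 s.2
    rw [h1]
    refine pp_eq h1.symm hu.2 ?_
    rwa [Subgroup.orderOf_coe]
  refine Finset.sum_bij (fun s _ => (s : G) * u) ?_ ?_ ?_ ?_
  · intro s hs
    rw [Finset.mem_filter] at hs ⊢
    exact ⟨Finset.mem_univ _, hpp s hs.2⟩
  · intro s _ t _ h
    exact Subtype.ext (mul_right_cancel h)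
  · intro x hx
    rw [Finset.mem_filter] at hx
    have h1 := pp_comm (p := p) x
    rw [hx.2] at h1
    refine ⟨⟨pr p x, mem_centralizer_singleton_iff.2 h1.symm⟩, ?_, ?_⟩
    · rw [Finset.mem_filter, ← Subgroup.orderOf_coe]
      exact ⟨Finset.mem_univ _, pr_regular' x⟩
    · change pr p x * u = x
      rw [← h1, ← hx.2]
      exact pp_mul_pr x
  · intro s _
    rfl

/-- **`k = ∑ l`**, at a central element -/
theorem card_mul_nK [Fintype G] {z : MonoidAlgebra k G}
    (hz : z ∈ Subalgebra.center k (MonoidAlgebra k G)) :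
    Nat.card G * nK red (fun g => z.coeff g) =
      ∑ u ∈ univ.filter (fun u : G => ∃ a : ℕ, u ^ p ^ a = 1),
        Nat.card (centralizer ({u} : Set G)) *
          numSimpleIn (trunc (centralizer ({u} : Set G)) z) := by
  have hcf := (P179C.mem_center_iff _).1 hz
  have h1 : ((Nat.card G * nK red (fun g => z.coeff g) : ℕ) : ℂ) = ∑ x : G, ∑ χ : Irr G,
      if lam red χ.1 (fun g => z.coeff g) = 1 then χ.1 x * χ.1 x⁻¹ else 0 := by
    rw [Finset.sum_comm]
    have h2 : ∀ χ : Irr G, (∑ x : G,
        if lam red χ.1 (fun g => z.coeff g) = 1 then χ.1 x * χ.1 x⁻¹ else 0) =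
        if lam red χ.1 (fun g => z.coeff g) = 1 then (Nat.card G : ℂ) else 0 := by
      intro χ
      split_ifs with h
      · rw [row_orth χ χ, if_pos rfl, Nat.card_eq_fintype_card]
      · exact Finset.sum_const_zero
    rw [Finset.sum_congr rfl fun χ _ => h2 χ, ← Finset.sum_filter, Finset.sum_const, nK,
      Nat.card_eq_fintype_card (α := {χ : Irr G // _}), Fintype.card_subtype, nsmul_eq_mul,
      Nat.cast_mul, mul_comm]
  apply Nat.cast_injective (R := ℂ)
  rw [h1, sum_by_pp (p := p), Nat.cast_sum]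
  refine Finset.sum_congr rfl fun u hu => ?_
  rw [Finset.mem_filter] at hu
  rw [Nat.cast_mul, card_mul_numSimpleIn (p := p) red (trunc_mem _ hz)]
  refine Finset.sum_congr (by convert rfl) fun s hs => ?_
  rw [Finset.mem_filter] at hs
  rw [kernel_at red u hu.2 (centralizer ({u} : Set G))
    (fun x => mem_centralizer_singleton_iff) hcf s hs.2]
  simp only [coeff_trunc]

end P179A0
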