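import Vale.Agent.P179.H166.KNDefs

/-!
# Numbers of ordinary characters in blocks, and alternating sums over chains of `p`-subgroups
-/

namespace P179A0

open P179H524 P179B

/-- `k(B)`: the number of ordinary irreducible characters of `G` in the block `B`. -/
noncomputable def numCharsIn {k : Type*} [Field k] (red : integralClosure ℤ ℂ →+* k)
    {G : Type*} [Group G] (B : MonoidAlgebra k G) : ℕ :=
  Nat.card {χ : G → ℂ // IsIrrChar χ ∧ CharInBlock red χ B}

/-- The number of ordinary irreducible characters of the subgroup `H` which lie in blocks `b` of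
`H` with `b^G = B`. -/
noncomputable def numCharsOver {k : Type*} [Field k] (red : integralClosure ℤ ℂ →+* k)
    {G : Type*} [Group G] (H : Subgroup G) (B : MonoidAlgebra k G) : ℕ :=
  Nat.card {ψ : H → ℂ // IsIrrChar ψ ∧
    ∃ b : MonoidAlgebra k H, IsBlock b ∧ CharInBlock red ψ b ∧ InducesTo b B}

/-- `∑ (-1)^|s| f(G_s)`, the sum over representatives `s` of the `G`-classes of nonempty normal
chains of nontrivial `p`-subgroups. -/
noncomputable def chainSum (p : ℕ) {G : Type*} [Group G] (f : Subgroup G → ℕ) : ℤ :=
  ∑ᶠ c : Quot (NChain.Conj (p := p) (G := G)), (-1) ^ c.out.1.card * (f (chainStab c.out.1) : ℤ)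

end P179A0
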