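import Vale.Agent.N179.Main
import Vale.Agent.N179.Defs

/-!
# The consequences of the weight conjecture, in terms of the definitions of the statement
-/

namespace P179A0

open Subgroup Finset P179H524 P179A P179K P179R P179C P179N P179P P179Y P179H725 P179H292

open P179B (NChain chainStab numSimpleOver)

open scoped Classical Pointwise

universe u

variable {p : ℕ} [hp : Fact p.Prime] {k : Type u} [Field k] [IsAlgClosed k] [CharP k p]
  {red : integralClosure ℤ ℂ →+* k} {G : Type} [Group G] [Finite G]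

omit hp [IsAlgClosed k] [CharP k p] in
theorem inducesTo_eq {H : Subgroup G} (b : MonoidAlgebra k H) (B : MonoidAlgebra k G) :
    P179B.InducesTo b B ↔ InducesTo b B := by
  have htr : ∀ z : MonoidAlgebra k G, P179B.trunc H z = trunc H z := fun _ => rfl
  unfold P179B.InducesTo InducesTo
  simp only [P179B.centralChar_eq, htr]

omit hp [IsAlgClosed k] [CharP k p] in
theorem charInBlock_eq (χ : G → ℂ) (B : MonoidAlgebra k G) :
    P179B.CharInBlock red χ B ↔ CharInBlock red χ B := by
  unfold P179B.CharInBlock CharInBlock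
  simp only [P179B.centralChar_eq]
  rfl

theorem numCharsOver_eq {M H : Subgroup G} (hM : IsPGroup p M) (hMH : M ≤ H)
    (hHM : H ≤ normalizer (M : Set G)) (hC : centralizer (M : Set G) ≤ H)
    {B : MonoidAlgebra k G} (hB : IsBlock B) :
    numCharsOver red H B = nK red (fun h : H => B.coeff h) := by
  have := Fintype.ofFinite G
  obtain ⟨β, hβ1, hβ2⟩ := exists_beta (k := k) red (G := H)
  unfold numCharsOver nK
  refine Nat.card_congr ((Equiv.subtypeSubtypeEquivSubtypeInter _ _).symm.trans
    (Equiv.subtypeEquivRight fun ψ => ?_))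
  have h1 := hβ1 ψ _ (trunc_mem H hB.1)
  simp only [coeff_trunc] at h1
  rw [h1, inducesTo_iff hM hMH hHM hC (β ψ).2 hB]
  constructor
  · rintro ⟨b, hb, h2, h3⟩
    rw [(hβ2 ψ ⟨b, hb⟩).1 ((charInBlock_eq _ _).1 h2)]
    exact (inducesTo_eq _ _).1 h3
  · intro h
    exact ⟨(β ψ).1, (β ψ).2, (charInBlock_eq _ _).2 ((hβ2 ψ _).2 rfl), (inducesTo_eq _ _).2 h⟩

omit hp [CharP k p] in
theorem numCharsIn_eq {B z : MonoidAlgebra k G} (hB : IsBlock B)
    (hz : z ∈ Subalgebra.center k (MonoidAlgebra k G))
    (h : ∀ b : MonoidAlgebra k G, IsBlock b → (centralChar b z = 1 ↔ b = B)) :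
    numCharsIn red B = nK red (fun g => z.coeff g) := by
  obtain ⟨β, hβ1, hβ2⟩ := exists_beta (k := k) red (G := G)
  unfold numCharsIn nK
  refine Nat.card_congr ((Equiv.subtypeSubtypeEquivSubtypeInter _ _).symm.trans
    (Equiv.subtypeEquivRight fun ψ => ?_))
  rw [hβ1 ψ _ hz, h _ (β ψ).2, charInBlock_eq, hβ2 ψ ⟨B, hB⟩, Subtype.ext_iff]

omit hp [CharP k p] in
theorem centralChar_block {B b : MonoidAlgebra k G} (hB : IsBlock B) (hb : IsBlock b) :
    centralChar b B = 1 ↔ b = B := by
  rw [charBlockStmt _ _ hb hB]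
  split_ifs with h
  · simp [h]
  · simp [h]

include p in
theorem numSimpleIn_eq_of {B z : MonoidAlgebra k G} (hB : IsBlock B)
    (hz : z ∈ Subalgebra.center k (MonoidAlgebra k G))
    (h : ∀ b : MonoidAlgebra k G, IsBlock b → (centralChar b z = 1 ↔ b = B)) :
    numSimpleIn z = numSimpleIn B := by
  have hfin := P179R.finite_blocks p (k := k) (G := G)
  have := Fintype.ofFinite {B : MonoidAlgebra k G // IsBlock B}
  rw [numSimpleIn_eq_sum (p := p) hz, numSimpleIn_eq_sum (p := p) hB.1]
  refine Finset.sum_congr rfl fun b _ => ?_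
  simp only [h _ b.2, centralChar_block hB b.2]

/-- the Brauer correspondent -/
theorem corr (hA : AW p red) {B : MonoidAlgebra k G} (hB : P179B.IsBlock B) {D : Subgroup G}
    (hD : P179B.IsDefectGroup B D) :
    (∃! b : MonoidAlgebra k (normalizer (D : Set G)), P179B.IsBlock b ∧ P179B.InducesTo b B) ∧
    ∀ b : MonoidAlgebra k (normalizer (D : Set G)), P179B.IsBlock b → P179B.InducesTo b B →
      P179B.numSimpleIn b ≤ P179B.numSimpleIn B ∧
      ((∀ x ∈ D, ∀ y ∈ D, x * y = y * x) →
        P179B.numSimpleIn b = P179B.numSimpleIn B ∧ numCharsIn red b = numCharsIn red B) := by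
  have := Fintype.ofFinite G
  have hB' : IsBlock B := hB
  have hD' : IsDefectGroup B D := hD
  have hDp := isPGroup_defect (p := p) hB' hD'
  refine ⟨?_, fun b hb hbB => ?_⟩
  · obtain ⟨b, hb, hbB⟩ := exists_corr (p := p) hB' hD'
    exact ⟨b, ⟨hb, (inducesTo_eq _ _).2 hbB⟩, fun b' h =>
      unique_corr (p := p) hB' hD' hb hbB h.1 ((inducesTo_eq _ _).1 h.2)⟩
  rw [inducesTo_eq] at hbB
  have hb' : IsBlock b := hb
  have key : ∀ c : MonoidAlgebra k (normalizer (D : Set G)), IsBlock c →
      (centralChar c (trunc (normalizer (D : Set G)) B) = 1 ↔ c = b) := by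
    intro c hc
    rw [inducesTo_iff hDp le_normalizer le_rfl (cent_le_norm D) hc hB']
    exact ⟨fun h => unique_corr (p := p) hB' hD' hb' hbB hc h, fun h => h ▸ hbB⟩
  have h1 := numSimpleIn_eq_of (p := p) hb' (trunc_mem _ hB'.1) key
  have h2 := numCharsIn_eq (red := red) hb' (trunc_mem _ hB'.1) key
  simp only [coeff_trunc] at h2
  obtain ⟨h3, h4⟩ := numSimple_le hA hB' hD'
  rw [P179B.numSimpleIn_eq, P179B.numSimpleIn_eq, ← h1]
  refine ⟨h3, fun hab => ⟨h4 hab, ?_⟩⟩
  rw [h2, nK_eq hA hB' hD' hab,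
    numCharsIn_eq hB' hB'.1 fun c hc => centralChar_block hB' hc]

/-- the alternating sums of a block -/
theorem alt_block (hA : AW p red) {B : MonoidAlgebra k G} (hB : P179B.IsBlock B) {D : Subgroup G}
    (hD : P179B.IsDefectGroup B D) (hD1 : D ≠ ⊥) :
    P179B.numSimpleIn B + chainSum p (fun H : Subgroup G => numSimpleOver H B) = 0 ∧
    numCharsIn red B + chainSum p (fun H : Subgroup G => numCharsOver red H B) = 0 := by
  have := Fintype.ofFinite G
  have hB' : IsBlock B := hB
  have hD' : IsDefectGroup B D := hD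
  constructor
  · have h1 := krSum_eq_of_local red hB hD hD1 fun s b hb _ => by
      rw [P179B.numSimpleIn_eq, P179B.numWeightsIn_eq]
      exact hA _ b hb
    rw [P179B.numSimpleIn_eq, P179B.numWeightsIn_eq, hA G B hB', sub_self] at h1
    exact h1
  · have hfin : Finite (NChain p G) := inferInstance
    have := Fintype.ofFinite (Quot (NChain.Conj (p := p) (G := G)))
    have h1 := KR_nK_quot hA hB'.1
    have h2 : cnt red p (fun g => B.coeff g) ⊤ ⊥ = 0 := by
      rw [cnt_top_bot ((P179C.mem_center_iff _).1 hB'.1), Nat.card_eq_zero]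
      exact Or.inl ⟨fun χ => no_dz red hB' hD' hD1 χ.2.1 χ.2.2⟩
    rw [h2, Nat.cast_zero] at h1
    rw [numCharsIn_eq hB' hB'.1 fun c hc => centralChar_block hB' hc, chainSum,
      finsum_eq_sum_of_fintype, ← h1]
    congr 1
    refine Finset.sum_congr rfl fun c _ => ?_
    obtain ⟨M, hM, -, hMp, -, hMs, -, hMC⟩ := exists_top c.out
    rw [numCharsOver_eq (H := chainStab c.out.1) hMp hMs (fun x hx => mem_stab.1 hx M hM) hMC hB']
    rfl

omit hp [IsAlgClosed k] [CharP k p] in
theorem nK_one {H : Type} [Group H] [Finite H] {z : H → k}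
    (hz : ∀ h, z h = if h = 1 then 1 else 0) : nK red z = Nat.card (ConjClasses H) := by
  have := Fintype.ofFinite H
  obtain rfl : z = fun h => if h = 1 then 1 else 0 := funext hz
  have h1 : nK red (fun h : H => if h = 1 then (1 : k) else 0) = Fintype.card (Irr H) := by
    rw [nK, ← Nat.card_eq_fintype_card]
    exact Nat.card_congr (Equiv.subtypeUnivEquiv fun χ => lam_one red χ.2)
  have h2 : ∑ x : H, ∑ χ : Irr H, χ.1 x * χ.1 x⁻¹ = Fintype.card (Irr H) * Nat.card H := by
    rw [Finset.sum_comm]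
    simp only [row_orth, if_true, Finset.sum_const, Finset.card_univ, nsmul_eq_mul,
      Nat.card_eq_fintype_card]
  simp only [col_orth] at h2
  have h3 : ∑ x : H, Nat.card {y : H // y * x * y⁻¹ = x} =
      Nat.card (ConjClasses H) * Nat.card H := by
    rw [← card_comm_eq_card_conjClasses_mul_card, ← Nat.card_sigma]
    exact Nat.card_congr
      { toFun := fun s => ⟨(s.1, s.2.1), (mul_inv_eq_iff_eq_mul.1 s.2.2).symm⟩
        invFun := fun t => ⟨t.1.1, ⟨t.1.2, mul_inv_eq_iff_eq_mul.2 t.2.eq.symm⟩⟩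
        left_inv := fun _ => rfl
        right_inv := fun _ => rfl }
  rw [← Nat.cast_sum, h3, ← Nat.cast_mul, Nat.cast_inj] at h2
  rw [h1]
  exact (Nat.eq_of_mul_eq_mul_right Nat.card_pos h2).symm

/-- the counts for the group -/
theorem counts (hA : AW p red) :
    Nat.card {c : ConjClasses G // ∀ g ∈ c.carrier, ¬ p ∣ orderOf g} = numWeights p G ∧
    (Nat.card {χ : G → ℂ // IsDefectZeroChar p χ} : ℤ) = Nat.card (ConjClasses G) +
      chainSum p (fun H : Subgroup G => Nat.card (ConjClasses H)) := by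
  have := Fintype.ofFinite G
  have hone : ∀ g : G, (1 : MonoidAlgebra k G).coeff g = if g = 1 then 1 else 0 := by
    intro g
    rw [← mkF_one, coeff_mkF]
  constructor
  · have h1 := hA.central (one_mem (Subalgebra.center k (MonoidAlgebra k G)))
    rw [numSimpleIn_one, numSimple_eq_card_orbits p, numW_eq_numWc red _ (one_mem _),
      numWc_eq_card p red (one_mem _)] at h1
    have h2 : Nat.card {q : Quot (P179H524.Weight.Conj (p := p) (G := G)) //
        mu p red q.out ⟨1, one_mem _⟩ = 1} = numWeights p G :=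
      Nat.card_congr (Equiv.subtypeUnivEquiv fun q => map_one (mu p red q.out))
    rw [← h2, ← h1]
    symm
    let f : MulAction.orbitRel.Quotient G (Reg p G) →
        {c : ConjClasses G // ∀ g ∈ c.carrier, ¬ p ∣ orderOf g} :=
      Quotient.lift (fun x => ⟨ConjClasses.mk x.1, fun g hg => by
        obtain ⟨c, hc⟩ := isConj_iff.1
          (ConjClasses.mk_eq_mk_iff_isConj.1 (ConjClasses.mem_carrier_iff_mk_eq.1 hg))
        have h3 : orderOf x.1 = orderOf g := by
          rw [← hc]
          exact (MulAut.conj c).orderOf_eq g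
        rw [← h3]
        exact x.2⟩) (by
        rintro x y ⟨g, rfl⟩
        exact Subtype.ext (ConjClasses.mk_eq_mk_iff_isConj.2 (isConj_iff.2 ⟨g, rfl⟩).symm))
    refine Nat.card_congr (Equiv.ofBijective f ⟨?_, ?_⟩)
    · intro a b
      induction a using Quotient.inductionOn with
      | h x =>
      induction b using Quotient.inductionOn with
      | h y =>
      intro h
      obtain ⟨g, hg⟩ := isConj_iff.1
        (ConjClasses.mk_eq_mk_iff_isConj.1 (congrArg Subtype.val h)).symm
      exact Quotient.sound ⟨g, Subtype.ext hg⟩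
    · rintro ⟨c, hc⟩
      obtain ⟨x, rfl⟩ := ConjClasses.mk_surjective c
      exact ⟨Quotient.mk _ ⟨x, hc x ConjClasses.mem_carrier_mk⟩, rfl⟩
  · have hfin : Finite (NChain p G) := inferInstance
    have := Fintype.ofFinite (Quot (NChain.Conj (p := p) (G := G)))
    have h1 := KR_nK_quot hA (one_mem (Subalgebra.center k (MonoidAlgebra k G)))
    rw [cnt_top_bot ((P179C.mem_center_iff _).1 (one_mem _)), nK_one hone] at h1
    have h2 : Nat.card {χ : G → ℂ // IsDefectZeroChar p χ ∧
        lam red χ (fun g => (1 : MonoidAlgebra k G).coeff g) = 1} =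
        Nat.card {χ : G → ℂ // IsDefectZeroChar p χ} := by
      refine Nat.card_congr (Equiv.subtypeEquivRight fun χ => and_iff_left_of_imp fun h => ?_)
      simp only [hone]
      exact lam_one red h.1
    rw [← h2, ← h1, chainSum, finsum_eq_sum_of_fintype]
    congr 1
    refine Finset.sum_congr rfl fun c _ => ?_
    rw [nK_one fun h => by rw [hone]; simp]
    rfl

end P179A0
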