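import Vale.Agent.N179.Count

/-!
# The Brauer correspondent of a block
-/

namespace P179A0

open Subgroup Finset P179H524 P179A P179K P179R P179C P179N P179P P179Y P179H725 P179H292

open scoped Classical

universe u

variable {p : ℕ} [hp : Fact p.Prime] {k : Type u} [Field k] [IsAlgClosed k] [CharP k p]
  {G : Type} [Group G] [Finite G]

/-- Brauer induction from `H`, `M C_G(M) ≤ H ≤ N_G(M)` -/
theorem inducesTo_iff {M H : Subgroup G} (hM : IsPGroup p M) (hMH : M ≤ H)
    (hHM : H ≤ normalizer (M : Set G)) (hC : centralizer (M : Set G) ≤ H)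
    {b : MonoidAlgebra k H} (hb : IsBlock b) {B : MonoidAlgebra k G} (hB : IsBlock B) :
    centralChar b (trunc H B) = 1 ↔ InducesTo b B := by
  have := Fintype.ofFinite G
  constructor
  · intro h z hz
    obtain ⟨L, hL⟩ := blockHomStmt b hb
    obtain ⟨LB, hLB⟩ := blockHomStmt B hB
    have hprim := (isBlock_iff_prim ⟨B, hB.1⟩).1 hB
    have h1 : resHom (p := p) M H hM hMH hHM hC L = LB := by
      refine eq_of_prim hprim _ LB ?_ ?_
      · rw [resHom_apply, hL]
        exact h
      · rw [hLB]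
        exact centralChar_self B hB
    have h2 := resHom_apply (p := p) M H hM hMH hHM hC L ⟨z, hz⟩
    rw [h1, hLB, hL] at h2
    exact h2.symm
  · intro h
    rw [h B hB.1]
    exact centralChar_self B hB

omit hp [Finite G] in
theorem card_le_of_conj [Finite G] {R D : Subgroup G} {c : G} (h : ∀ y ∈ R, c⁻¹ * y * c ∈ D) :
    Nat.card R ≤ Nat.card D := by
  let f : R → D := fun r => ⟨c⁻¹ * r * c, h r r.2⟩
  refine Nat.card_le_card_of_injective f fun a b hab => ?_
  have h1 := congrArg Subtype.val hab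
  exact Subtype.ext (mul_left_cancel (mul_right_cancel h1))

theorem isPGroup_defect {B : MonoidAlgebra k G} (hB : IsBlock B) {D : Subgroup G}
    (hD : IsDefectGroup B D) : IsPGroup p D := by
  have := Fintype.ofFinite G
  exact (exists_BP_of_block (p := p) B hB D hD).1

include p in
/-- existence of the Brauer correspondent -/
theorem exists_corr {B : MonoidAlgebra k G} (hB : IsBlock B) {D : Subgroup G}
    (hD : IsDefectGroup B D) :
    ∃ b : MonoidAlgebra k (normalizer (D : Set G)), IsBlock b ∧ InducesTo b B := by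
  have := Fintype.ofFinite G
  obtain ⟨hDp, l, hl, hlz⟩ := exists_BP_of_block (p := p) B hB D hD
  have hl2 := hl.restrict (H := normalizer (D : Set G)) le_normalizer (cent_le_norm D)
  have hh := hl2.isHomCF' hDp.comap_subtype
  obtain ⟨b, hb, hbl⟩ := homBlockStmt hh.toAlgHom
  refine ⟨b, hb, (inducesTo_iff hDp le_normalizer le_rfl (cent_le_norm D) hb hB).1 ?_⟩
  have h1 := hbl ⟨trunc _ B, trunc_mem _ hB.1⟩
  rw [IsHomCF.toAlgHom_apply] at h1
  simp only [coeff_trunc] at h1
  rw [← h1, hl.lres_coe (cent_le_norm D), hlz _ ((P179C.mem_center_iff _).1 hB.1), mkF_coeff]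
  exact centralChar_self B hB

include p in
/-- the defect group of the Brauer correspondent -/
theorem defect_corr {B : MonoidAlgebra k G} (hB : IsBlock B) {D : Subgroup G}
    (hD : IsDefectGroup B D) {b : MonoidAlgebra k (normalizer (D : Set G))} (hb : IsBlock b)
    (hbB : InducesTo b B) : IsDefectGroup b (D.subgroupOf (normalizer (D : Set G))) := by
  have := Fintype.ofFinite G
  have hDp := isPGroup_defect (p := p) hB hD
  obtain ⟨E, hE⟩ := exists_defect hb
  have h1 : D.subgroupOf (normalizer (D : Set G)) ≤ E :=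
    le_defect (p := p) hb hE _ hDp.comap_subtype
  obtain ⟨hEp, l, hl, hlz⟩ := exists_BP_of_block (p := p) b hb E hE
  have hcf : IsCF (fun n : normalizer (D : Set G) => B.coeff n) :=
    fun g x => (P179C.mem_center_iff _).1 hB.1 (g : G) (x : G)
  have h2 : l (fun n : normalizer (D : Set G) => B.coeff n) = 1 := by
    rw [hlz _ hcf, ← trunc_mkF, mkF_coeff, hbB B hB.1]
    exact centralChar_self B hB
  obtain ⟨x, hx, hx0⟩ : ∃ x ∈ centralizer (E : Set (normalizer (D : Set G))),
      B.coeff (x : G) ≠ 0 := by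
    by_contra hcon
    push Not at hcon
    rw [hl.supp _ hcon] at h2
    exact zero_ne_one h2
  obtain ⟨c, hc⟩ := suppIn_of_isDefectGroup (p := p) hD x hx0
    (E.map (normalizer (D : Set G)).subtype) (hEp.map _) (by
      rintro _ ⟨e, he, rfl⟩
      rw [mem_centralizer_singleton_iff]
      exact congrArg Subtype.val (mem_centralizer_iff.1 hx e he))
  have h3 := card_le_of_conj hc
  rw [card_map_of_injective (subtype_injective _),
    ← Nat.card_congr (subgroupOfEquivOfLe (H := D) le_normalizer).toEquiv] at h3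
  rw [eq_of_le_of_card_ge h1 h3]
  exact hE

omit hp in
/-- a `p`-subgroup which contains the `p`-subgroups of `C_G(x)` normalising it is Sylow -/
theorem sylCent_of_norm [Fact p.Prime] {x : G} {D : Subgroup G} (hD : IsPGroup p D)
    (hDx : D ≤ centralizer {x})
    (h : ∀ P : Subgroup G, IsPGroup p P → P ≤ centralizer {x} → P ≤ normalizer (D : Set G) →
      P ≤ D) : SylCent p x D := by
  have := Fintype.ofFinite G
  obtain ⟨R, hR⟩ := exists_sylCent p x
  obtain ⟨c, hc, hcR⟩ := hR.max D hD hDx
  have hR' := hR.conj c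
  have hcx : c * x * c⁻¹ = x := mul_inv_eq_iff_eq_mul.2 (mem_centralizer_singleton_iff.1 hc)
  rw [hcx] at hR'
  set R' := R.map (MulAut.conj c).toMonoidHom with hR'def
  have hDR : D ≤ R' := fun y hy => ⟨c⁻¹ * y * c, hcR y hy, by simp [mul_assoc]⟩
  suffices hle : R' ≤ D by rwa [← le_antisymm hle hDR]
  by_contra hcon
  have hlt : D.subgroupOf R' < ⊤ := by
    rw [lt_top_iff_ne_top]
    intro htop
    rw [subgroupOf_eq_top] at htop
    exact hcon htop
  have : Group.IsNilpotent R' := hR'.pgp.isNilpotent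
  have h3 := (Group.normalizerCondition_of_isNilpotent (G := R')) _ hlt
  obtain ⟨y, hy, hyD⟩ := SetLike.exists_of_lt h3
  have hyn := (mem_norm_subgroupOf hDR y).1 hy
  have h4 := h (R' ⊓ normalizer (D : Set G)) (hR'.pgp.to_inf_left) (inf_le_left.trans hR'.le)
    inf_le_right
  exact hyD (mem_subgroupOf.2 (h4 ⟨y.2, hyn⟩))

omit hp in
/-- fusion of elements with defect group `D` is controlled by `N_G(D)` -/
theorem conj_in_norm [Fact p.Prime] {x g : G} {D : Subgroup G} (hx : SylCent p x D)
    (hD : D ≤ centralizer {g * x * g⁻¹}) :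
    ∃ n ∈ normalizer (D : Set G), n * x * n⁻¹ = g * x * g⁻¹ := by
  obtain ⟨c, hc, hcD⟩ := (hx.conj g).max D hx.pgp hD
  have h1 : ∀ d ∈ D, (c * g)⁻¹ * d * (c * g) ∈ D := by
    intro d hd
    obtain ⟨e, he, h2⟩ := hcD d hd
    have h3 : g * e * g⁻¹ = c⁻¹ * d * c := h2
    have h4 : (c * g)⁻¹ * d * (c * g) = g⁻¹ * (c⁻¹ * d * c) * g := by group
    rw [h4, ← h3]
    simpa [mul_assoc] using he
  refine ⟨c * g, mem_norm_of_conj_le h1, ?_⟩
  have h5 : c * (g * x * g⁻¹) = g * x * g⁻¹ * c := mem_centralizer_singleton_iff.1 hc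
  calc c * g * x * (c * g)⁻¹ = c * (g * x * g⁻¹) * c⁻¹ := by group
    _ = g * x * g⁻¹ := by rw [h5, mul_inv_cancel_right]

include p in
/-- **uniqueness of the Brauer correspondent** -/
theorem unique_corr {B : MonoidAlgebra k G} (hB : IsBlock B) {D : Subgroup G}
    (hD : IsDefectGroup B D) {b b' : MonoidAlgebra k (normalizer (D : Set G))} (hb : IsBlock b)
    (hbB : InducesTo b B) (hb' : IsBlock b') (hbB' : InducesTo b' B) : b' = b := by
  have := Fintype.ofFinite G
  have hDp := isPGroup_defect (p := p) hB hD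
  have hE := defect_corr (p := p) hB hD hb hbB
  have hE' := defect_corr (p := p) hB hD hb' hbB'
  obtain ⟨-, l, hl, hlz⟩ := exists_BP_of_block (p := p) b hb _ hE
  obtain ⟨-, l', hl', hlz'⟩ := exists_BP_of_block (p := p) b' hb' _ hE'
  have hbcf : IsCF (fun n => b.coeff n) := (P179C.mem_center_iff _).1 hb.1
  have hsyl : ∀ x : normalizer (D : Set G), (x : G) ∈ centralizer (D : Set G) → b.coeff x ≠ 0 →
      SylCent p (x : G) D := by
    intro x hx hx0
    refine sylCent_of_norm hDp (fun d hd => ?_) fun P hP hPx hPN => ?_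
    · rw [mem_centralizer_singleton_iff]
      exact mem_centralizer_iff.1 hx d hd
    · obtain ⟨c, hc⟩ := suppIn_of_isDefectGroup (p := p) hE x hx0
        (P.subgroupOf (normalizer (D : Set G))) hP.comap_subtype (fun y hy => by
          rw [mem_centralizer_singleton_iff]
          exact Subtype.ext (mem_centralizer_singleton_iff.1 (hPx (mem_subgroupOf.1 hy))))
      intro y hy
      have h1 := mem_subgroupOf.1 (hc ⟨y, hPN hy⟩ (mem_subgroupOf.2 hy))
      have h2 := (mem_normalizer_iff.1 c.2 _).1 h1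
      have h3 : (c : G) * ((c⁻¹ * ⟨y, hPN hy⟩ * c : normalizer (D : Set G)) : G) * (c : G)⁻¹ =
          y := by
        change (c : G) * ((c : G)⁻¹ * y * c) * (c : G)⁻¹ = y
        group
      rwa [h3] at h2
  let P : G → normalizer (D : Set G) → Prop := fun x n =>
    IsConj (n : G) x ∧ (n : G) ∈ centralizer (D : Set G) ∧ b.coeff n ≠ 0
  have hwd : ∀ (x : G) (n m : normalizer (D : Set G)), P x n → IsConj (m : G) x →
      (m : G) ∈ centralizer (D : Set G) → b.coeff m = b.coeff n := by
    intro x n m hn hm hmC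
    obtain ⟨g, hg⟩ := isConj_iff.1 (hn.1.trans hm.symm)
    obtain ⟨t, ht, h1⟩ := conj_in_norm (g := g) (hsyl n hn.2.1 hn.2.2) (fun d hd => by
      rw [hg, mem_centralizer_singleton_iff]
      exact mem_centralizer_iff.1 hmC d hd)
    have h2 : m = ⟨t, ht⟩ * n * ⟨t, ht⟩⁻¹ := Subtype.ext (by rw [← hg, ← h1]; rfl)
    rw [h2]
    exact hbcf ⟨t, ht⟩ n
  let y : G → k := fun x => if h : ∃ n, P x n then b.coeff h.choose else 0
  have hy : IsCF y := by
    intro g x
    have hc : IsConj x (g * x * g⁻¹) := isConj_iff.2 ⟨g, rfl⟩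
    have hiff : ∀ n, P (g * x * g⁻¹) n ↔ P x n := fun n =>
      ⟨fun h => ⟨h.1.trans hc.symm, h.2⟩, fun h => ⟨h.1.trans hc, h.2⟩⟩
    by_cases h : ∃ n, P x n
    · have h' : ∃ n, P (g * x * g⁻¹) n := h.imp fun n hn => (hiff n).2 hn
      simp only [y, dif_pos h, dif_pos h']
      have h1 := (hiff _).1 h'.choose_spec
      exact hwd x _ _ h.choose_spec h1.1 h1.2.1
    · have h' : ¬ ∃ n, P (g * x * g⁻¹) n := fun h' => h (h'.imp fun n hn => (hiff n).1 hn)
      simp only [y, dif_neg h, dif_neg h']
  have hyb : ∀ m ∈ centralizer ((D.subgroupOf (normalizer (D : Set G)) :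
      Subgroup (normalizer (D : Set G))) : Set (normalizer (D : Set G))),
      b.coeff m = y m := by
    intro m hm
    rw [mem_cent_subgroupOf le_normalizer] at hm
    by_cases h : ∃ n, P m n
    · simp only [y, dif_pos h]
      exact hwd m _ m h.choose_spec (IsConj.refl _) hm
    · simp only [y, dif_neg h]
      by_contra h0
      exact h ⟨m, IsConj.refl _, hm, h0⟩
  have hyN : IsCF (fun n : normalizer (D : Set G) => y n) := fun g x => hy g x
  have h1 : centralChar b' b = 1 := by
    have e1 := hlz' _ hbcf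
    have e2 := hlz _ hbcf
    rw [mkF_coeff] at e1 e2
    rw [← e1, hl'.congr hyb, hlz' _ hyN, ← trunc_mkF, hbB' _ (mkF_mem hy), ← hbB _ (mkF_mem hy),
      trunc_mkF, ← hlz _ hyN, ← hl.congr hyb, e2]
    exact centralChar_self b hb
  rw [charBlockStmt _ _ hb' hb] at h1
  by_contra hne
  rw [if_neg hne] at h1
  exact zero_ne_one h1

end P179A0
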