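import Vale.Agent.N179.First

/-!
# The weights over a block in local subgroups
-/

namespace P179A0

open Subgroup Finset P179H524 P179A P179K P179R P179C P179N P179P P179Y P179H725 P179H292

open scoped Classical

universe u

variable {p : ℕ} [hp : Fact p.Prime] {k : Type u} [Field k] [IsAlgClosed k] [CharP k p]
  (red : integralClosure ℤ ℂ →+* k) {G : Type} [Group G] [Finite G]

omit hp [IsAlgClosed k] [CharP k p] in
theorem exists_WF {z : MonoidAlgebra k G} (hz : z ∈ Subalgebra.center k (MonoidAlgebra k G))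
    {H R : Subgroup G} (hR : IsPGroup p R) (hRH : R ≤ H)
    (h : cnt red p (fun g => z.coeff g) (normalizer (R : Set G) ⊓ H) R ≠ 0) :
    ∃ w : WF p H, w.R.map H.subtype = R ∧ w.In red (trunc H z) := by
  have := Fintype.ofFinite G
  have hcf := (P179C.mem_center_iff _).1 hz
  have h1 : (R.subgroupOf H).map H.subtype = R := by
    rw [subgroupOf_map_subtype]
    exact inf_eq_left.mpr hRH
  have h2 := cnt_sub (p := p) red H hcf (R.subgroupOf H)
  rw [h1] at h2
  rw [← h2] at h
  obtain ⟨χ, a1, a2, a3, a4, a5⟩ := (Nat.card_ne_zero.1 h).1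
  refine ⟨⟨R.subgroupOf H, χ, hR.comap_subtype, a1, a2, a3, a4⟩, h1, ?_⟩
  unfold WF.In
  simp only [coeff_trunc]
  exact a5

omit [IsAlgClosed k] in
/-- the subgroup of a weight over `B` is conjugate to a subgroup of the defect group -/
theorem card_le_of_in {B : MonoidAlgebra k G} (hB : IsBlock B) {D : Subgroup G}
    (hD : IsDefectGroup B D) {H : Subgroup G} (w : WF p H) (hw : w.In red (trunc H B)) :
    Nat.card (w.R.map H.subtype) ≤ Nat.card D := by
  have := Fintype.ofFinite G
  obtain ⟨ψ, hψ, hχ⟩ := w.exists_dz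
  have hcf : IsCF (fun n : normalizer (w.R : Set H) => (trunc H B).coeff n) :=
    fun g x => (P179C.mem_center_iff _).1 (trunc_mem H hB.1) (g : H) (x : H)
  obtain ⟨x, hx, hx0⟩ : ∃ x ∈ centralizer ((w.R.subgroupOf (normalizer (w.R : Set H)) :
      Subgroup (normalizer (w.R : Set H))) : Set (normalizer (w.R : Set H))),
      (trunc H B).coeff (x : H) ≠ 0 := by
    by_contra hcon
    push Not at hcon
    have h1 := lam_infl_cut red (w.R.subgroupOf (normalizer (w.R : Set H))) w.pgp.comap_subtype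
      hψ.1 hcf hcon
    unfold WF.In at hw
    simp only [hχ] at hw
    exact zero_ne_one (h1.symm.trans hw)
  rw [coeff_trunc] at hx0
  rw [mem_cent_subgroupOf le_normalizer] at hx
  obtain ⟨c, hc⟩ := suppIn_of_isDefectGroup (p := p) hD _ hx0 (w.R.map H.subtype) (w.pgp.map _) (by
    rintro _ ⟨e, he, rfl⟩
    rw [mem_centralizer_singleton_iff]
    exact congrArg Subtype.val (mem_centralizer_iff.1 hx e he))
  exact card_le_of_conj hc

/-- abelian defect groups: the subgroup of a weight over `B` is conjugate to the defect group -/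
theorem conj_of_in {B : MonoidAlgebra k G} (hB : IsBlock B) {D : Subgroup G}
    (hD : IsDefectGroup B D) (hab : ∀ a ∈ D, ∀ b ∈ D, a * b = b * a) {M H : Subgroup G}
    (hM : IsPGroup p M) (hMH : M ≤ H) (hHM : H ≤ normalizer (M : Set G))
    (hC : centralizer (M : Set G) ≤ H) (w : WF p H) (hw : w.In red (trunc H B)) :
    ∃ g : G, w.R.map H.subtype = D.map (MulAut.conj g).toMonoidHom := by
  have := Fintype.ofFinite G
  obtain ⟨w0, rfl⟩ := toWF_surjective w
  rw [in_toWF red w0 _ (trunc_mem H hB.1)] at hw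
  obtain ⟨b, hb, hbl⟩ := homBlockStmt (mu p red w0)
  have hbB : InducesTo b B := (inducesTo_iff hM hMH hHM hC hb hB).1 (by
    rw [← hw, hbl])
  obtain ⟨E, hE⟩ := exists_defect hb
  have hCE := cent_defect_le' hM hMH hHM hC hb hE
  obtain ⟨g, hg⟩ := defect_conj p hB hD hab hb hbB hE hCE
  have hEab := defect_comm p hB hD hab hb hbB hE hCE
  obtain ⟨hEp, l, hl, hlz⟩ := exists_BP_of_block (p := p) b hb E hE
  have hwb : WeightInBlock red w0 b := by
    rw [weightInBlock_iff_mu1 p red w0 hb, hbl]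
    exact centralChar_self b hb
  obtain ⟨h, hh⟩ := conj_of_WL red hl hEp (le_cent_of_comm hEab)
    (hT_of_block hb hE hEp hEab hl hlz) w0 (wl_of_weightInBlock red hlz w0 hwb)
  refine ⟨h * g, ?_⟩
  ext x
  have h1 : x ∈ D.map (MulAut.conj ((h : G) * g)).toMonoidHom ↔
      g⁻¹ * ((h : G)⁻¹ * x * h) * g ∈ D := by
    rw [Subgroup.mem_map_equiv, MulAut.conj_symm_apply]
    have : ((h : G) * g)⁻¹ * x * (h * g) = g⁻¹ * ((h : G)⁻¹ * x * h) * g := by group
    rw [this]
  rw [h1, ← hg]
  constructor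
  · rintro ⟨y, hy, rfl⟩
    exact ⟨h⁻¹ * y * h, (hh y).1 hy, rfl⟩
  · rintro ⟨y, hy, h2⟩
    refine ⟨h * y * h⁻¹, (hh _).2 ?_, ?_⟩
    · have : h⁻¹ * (h * y * h⁻¹) * h = y := by group
      rwa [this]
    · have h3 : (y : G) = (h : G)⁻¹ * x * h := h2
      change (h : G) * y * (h : G)⁻¹ = x
      rw [h3]
      group

/-- `|K|` times the number of classes of weights of `K` over `z` -/
noncomputable def FW (p : ℕ) {k : Type*} [Field k] (red : integralClosure ℤ ℂ →+* k) {G : Type}
    [Group G] (z : MonoidAlgebra k G) (K : Subgroup G) : ℤ :=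
  (Nat.card K : ℤ) * numW p red (trunc K z)

omit hp [IsAlgClosed k] [CharP k p] in
theorem FW_conj {z : MonoidAlgebra k G} (hz : z ∈ Subalgebra.center k (MonoidAlgebra k G))
    (K : Subgroup G) (g : G) : FW p red z (K.map (MulAut.conj g).toMonoidHom) = FW p red z K := by
  have := Fintype.ofFinite G
  let θ : K ≃* K.map (MulAut.conj g).toMonoidHom := (MulAut.conj g).subgroupMap K
  unfold FW
  rw [← Nat.card_congr θ.toEquiv]
  congr 2
  symm
  refine numW_congr red θ (trunc_mem _ hz) fun x => ?_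
  rw [coeff_trunc, coeff_trunc]
  exact ((P179C.mem_center_iff _).1 hz g x).symm

omit [IsAlgClosed k] in
/-- a subgroup with a normal `p`-subgroup `R` as large as the defect group: all weights are
attached to `R` -/
theorem FW_eq {B : MonoidAlgebra k G} (hB : IsBlock B) {D : Subgroup G}
    (hD : IsDefectGroup B D) {R K : Subgroup G} (hR : IsPGroup p R) (hRK : R ≤ K)
    (hKR : K ≤ normalizer (R : Set G)) (hc : Nat.card D ≤ Nat.card R) :
    FW p red B K = (Nat.card K : ℤ) * cnt red p (fun g => B.coeff g) K R := by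
  have := Fintype.ofFinite (Subgroup G)
  unfold FW
  rw [card_mul_numW_sub red K hB.1, Finset.sum_eq_single R]
  · rw [inf_eq_right.2 hKR]
  · intro S hS hSR
    rw [Finset.mem_filter] at hS
    by_contra h0
    have h1 : cnt red p (fun g => B.coeff g) (normalizer (S : Set G) ⊓ K) S ≠ 0 := by
      intro h
      rw [h, Nat.cast_zero, mul_zero] at h0
      exact h0 rfl
    obtain ⟨w, hw1, hw2⟩ := exists_WF red hB.1 hS.2.1 hS.2.2 h1
    have h2 := card_le_of_in red hB hD w hw2
    have h3 : R.subgroupOf K ≤ w.R := w.le_of_norm hR.comap_subtype fun x _ =>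
      (mem_norm_subgroupOf hRK x).2 (hKR x.2)
    have h4 : R ≤ S := by
      rw [← hw1]
      intro x hx
      exact ⟨⟨x, hRK hx⟩, h3 (mem_subgroupOf.2 hx), rfl⟩
    rw [hw1] at h2
    exact hSR (eq_of_le_of_card_ge h4 (h2.trans hc)).symm
  · intro h
    refine absurd ?_ h
    rw [Finset.mem_filter]
    exact ⟨Finset.mem_univ _, hR, hRK⟩

/-- the conjugates of `D` -/
noncomputable def orb [Fintype (Subgroup G)] (D : Subgroup G) : Finset (Subgroup G) :=
  univ.filter fun R => ∃ g : G, R = D.map (MulAut.conj g).toMonoidHom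

omit hp [Finite G] in
theorem mem_orb [Fintype (Subgroup G)] {D R : Subgroup G} :
    R ∈ orb D ↔ ∃ g : G, R = D.map (MulAut.conj g).toMonoidHom := by
  unfold orb
  rw [Finset.mem_filter]
  exact and_iff_right (Finset.mem_univ _)

omit hp in
theorem sum_orb [Fintype (Subgroup G)] (D : Subgroup G) (f : Subgroup G → ℤ)
    (hf : ∀ g : G, f (D.map (MulAut.conj g).toMonoidHom) = f D) :
    (Nat.card (normalizer (D : Set G)) : ℤ) * ∑ R ∈ orb D, f R = Nat.card G * f D := by
  have := Fintype.ofFinite G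
  have h1 : ∑ g : G, f (D.map (MulAut.conj g).toMonoidHom) = Nat.card G * f D := by
    simp only [hf, Finset.sum_const, Finset.card_univ, nsmul_eq_mul, Nat.card_eq_fintype_card]
  rw [← h1, ← Finset.sum_fiberwise_of_maps_to (s := univ) (t := orb D)
    (g := fun g : G => D.map (MulAut.conj g).toMonoidHom)
    (fun g _ => mem_orb.2 ⟨g, rfl⟩), Finset.mul_sum]
  refine Finset.sum_congr rfl fun R hR => ?_
  obtain ⟨g0, rfl⟩ := mem_orb.1 hR
  rw [Finset.sum_congr rfl (g := fun _ => f (D.map (MulAut.conj g0).toMonoidHom))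
    (fun g hg => by rw [(Finset.mem_filter.1 hg).2]), Finset.sum_const, nsmul_eq_mul]
  congr 2
  rw [← Fintype.card_subtype, ← Nat.card_eq_fintype_card]
  have key : ∀ g : G, D.map (MulAut.conj g).toMonoidHom = D.map (MulAut.conj g0).toMonoidHom ↔
      g0⁻¹ * g ∈ normalizer (D : Set G) := by
    intro g
    rw [Subgroup.ext_iff, mem_normalizer_iff]
    simp only [Subgroup.mem_map_equiv, MulAut.conj_symm_apply]
    constructor
    · intro h x
      have h2 := h (g * x * g⁻¹)
      have e1 : g⁻¹ * (g * x * g⁻¹) * g = x := by group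
      have e2 : g0⁻¹ * (g * x * g⁻¹) * g0 = g0⁻¹ * g * x * (g0⁻¹ * g)⁻¹ := by group
      rwa [e1, e2] at h2
    · intro h x
      have h2 := h (g⁻¹ * x * g)
      have e2 : g0⁻¹ * g * (g⁻¹ * x * g) * (g0⁻¹ * g)⁻¹ = g0⁻¹ * x * g0 := by group
      rwa [e2] at h2
  exact Nat.card_congr
    { toFun := fun n => ⟨g0 * n, (key _).2 (by simp)⟩
      invFun := fun g => ⟨g0⁻¹ * g, (key _).1 g.2⟩
      left_inv := fun n => by simp
      right_inv := fun g => Subtype.ext (by simp) }

omit hp [Finite G] in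
theorem card_map_conj (D : Subgroup G) (g : G) :
    Nat.card (D.map (MulAut.conj g).toMonoidHom) = Nat.card D :=
  card_map_of_injective (MulAut.conj g).injective

/-- the weights of `H` over `B` and the conjugates of `D` in `H` -/
theorem FW_ge [Fintype (Subgroup G)] {B : MonoidAlgebra k G} (hB : IsBlock B) {D : Subgroup G}
    (hD : IsDefectGroup B D) (H : Subgroup G) :
    ∑ R ∈ orb D, (if R ≤ H then FW p red B (normalizer (R : Set G) ⊓ H) else 0) ≤ FW p red B H ∧
    ((∀ w : WF p H, w.In red (trunc H B) →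
        ∃ g : G, w.R.map H.subtype = D.map (MulAut.conj g).toMonoidHom) →
      ∑ R ∈ orb D, (if R ≤ H then FW p red B (normalizer (R : Set G) ⊓ H) else 0) =
        FW p red B H) := by
  have hDp := isPGroup_defect (p := p) hB hD
  have h1 : ∑ R ∈ orb D, (if R ≤ H then FW p red B (normalizer (R : Set G) ⊓ H) else 0) =
      ∑ R ∈ (orb D).filter (fun R => R ≤ H),
        (Nat.card (normalizer (R : Set G) ⊓ H : Subgroup G) : ℤ) *
          cnt red p (fun g => B.coeff g) (normalizer (R : Set G) ⊓ H) R := by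
    rw [← Finset.sum_filter]
    refine Finset.sum_congr rfl fun R hR => ?_
    rw [Finset.mem_filter] at hR
    obtain ⟨g, rfl⟩ := mem_orb.1 hR.1
    exact FW_eq red hB hD (hDp.map _) (le_inf le_normalizer hR.2) inf_le_left
      (card_map_conj D g).ge
  have hsub : (orb D).filter (fun R => R ≤ H) ⊆
      univ.filter (fun R : Subgroup G => IsPGroup p R ∧ R ≤ H) := by
    intro R hR
    rw [Finset.mem_filter] at hR ⊢
    obtain ⟨g, rfl⟩ := mem_orb.1 hR.1
    exact ⟨Finset.mem_univ _, hDp.map _, hR.2⟩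
  rw [h1, FW, card_mul_numW_sub red H hB.1]
  refine ⟨Finset.sum_le_sum_of_subset_of_nonneg hsub fun R _ _ => by positivity,
    fun h => Finset.sum_subset hsub fun R hR hR2 => ?_⟩
  rw [Finset.mem_filter] at hR
  by_contra h0
  have h1 : cnt red p (fun g => B.coeff g) (normalizer (R : Set G) ⊓ H) R ≠ 0 := by
    intro h
    rw [h, Nat.cast_zero, mul_zero] at h0
    exact h0 rfl
  obtain ⟨w, hw1, hw2⟩ := exists_WF red hB.1 hR.2.1 hR.2.2 h1
  obtain ⟨g, hg⟩ := h w hw2
  exact hR2 (Finset.mem_filter.2 ⟨mem_orb.2 ⟨g, hw1.symm.trans hg⟩, hR.2.2⟩)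

end P179A0
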