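import Vale.Agent.N179.Local

/-!
# Consequences of the weight conjecture: the Brauer correspondent, the alternating sums
-/

namespace P179A0

open Subgroup Finset P179H524 P179A P179K P179R P179C P179N P179P P179Y P179H725 P179H292

open P179B (NChain)

open scoped Classical Pointwise

universe u

variable {p : ℕ} [hp : Fact p.Prime] {k : Type u} [Field k] [IsAlgClosed k] [CharP k p]
  {red : integralClosure ℤ ℂ →+* k} {G : Type} [Group G] [Finite G]

/-- the centraliser in `H` of an element of `H`, seen inside `G` -/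
def centEquiv (H : Subgroup G) (u : H) :
    centralizer ({u} : Set H) ≃* (H ⊓ centralizer ({(u : G)} : Set G) : Subgroup G) where
  toFun x := ⟨x.1.1, x.1.2, mem_centralizer_singleton_iff.2
    (congrArg Subtype.val (mem_centralizer_singleton_iff.1 x.2))⟩
  invFun x := ⟨⟨x.1, x.2.1⟩, mem_centralizer_singleton_iff.2
    (Subtype.ext (mem_centralizer_singleton_iff.1 x.2.2))⟩
  left_inv _ := rfl
  right_inv _ := rfl
  map_mul' _ _ := rfl

theorem FW_inf (hA : AW p red) {z : MonoidAlgebra k G}
    (hz : z ∈ Subalgebra.center k (MonoidAlgebra k G)) (H : Subgroup G) (u : H) :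
    ((Nat.card (centralizer ({u} : Set H)) *
        numSimpleIn (trunc (centralizer ({u} : Set H)) (trunc H z)) : ℕ) : ℤ) =
      FW p red z (H ⊓ centralizer ({(u : G)} : Set G)) := by
  have := Fintype.ofFinite G
  rw [hA.central (trunc_mem _ (trunc_mem H hz)), FW, Nat.card_congr (centEquiv H u).toEquiv,
    numW_congr red (centEquiv H u) (e := trunc _ z) (trunc_mem _ hz) fun x => by
      rw [coeff_trunc, coeff_trunc, coeff_trunc]; rfl]
  push_cast
  rfl

theorem card_mul_nK_sub [Fintype G] (hA : AW p red) {z : MonoidAlgebra k G}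
    (hz : z ∈ Subalgebra.center k (MonoidAlgebra k G)) (H : Subgroup G) :
    (Nat.card H : ℤ) * nK red (fun h : H => z.coeff h) =
      ∑ u ∈ univ.filter (fun u : G => ∃ a : ℕ, u ^ p ^ a = 1),
        if u ∈ H then FW p red z (H ⊓ centralizer ({u} : Set G)) else 0 := by
  have h1 := card_mul_nK (p := p) red (trunc_mem H hz)
  simp only [coeff_trunc] at h1
  rw [← Nat.cast_mul, h1, Nat.cast_sum, ← Finset.sum_filter]
  refine Finset.sum_bij (fun u _ => (u : G)) ?_ ?_ ?_ ?_
  · intro u hu
    obtain ⟨a, ha⟩ := (Finset.mem_filter.1 hu).2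
    simp only [Finset.mem_filter, Finset.mem_univ, true_and]
    exact ⟨⟨a, congrArg Subtype.val ha⟩, u.2⟩
  · intro u _ v _ h
    exact Subtype.ext h
  · intro u hu
    simp only [Finset.mem_filter, Finset.mem_univ, true_and] at hu
    obtain ⟨⟨a, ha⟩, hu⟩ := hu
    exact ⟨⟨u, hu⟩, Finset.mem_filter.2 ⟨Finset.mem_univ _, a, Subtype.ext ha⟩, rfl⟩
  · intro u _
    exact FW_inf hA hz H u

omit hp [Finite G] in
theorem zpowers_data {u : G} (hu : ∃ a : ℕ, u ^ p ^ a = 1) :
    IsPGroup p (zpowers u) ∧ zpowers u ≤ centralizer ({u} : Set G) ∧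
      centralizer ({u} : Set G) ≤ normalizer ((zpowers u : Subgroup G) : Set G) ∧
      centralizer ((zpowers u : Subgroup G) : Set G) ≤ centralizer ({u} : Set G) := by
  obtain ⟨a, ha⟩ := hu
  refine ⟨?_, ?_, ?_, centralizer_le (Set.singleton_subset_iff.2 (mem_zpowers u))⟩
  · rintro ⟨_, m, rfl⟩
    refine ⟨a, Subtype.ext ?_⟩
    change (u ^ m) ^ p ^ a = 1
    rw [← zpow_natCast, ← zpow_mul, mul_comm, zpow_mul, zpow_natCast, ha, one_zpow]
  · rw [zpowers_le, mem_centralizer_singleton_iff]
  · refine le_trans ?_ (cent_le_norm _)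
    intro x hx
    rw [mem_centralizer_iff]
    rintro _ ⟨m, rfl⟩
    have h1 : Commute x u := mem_centralizer_singleton_iff.1 hx
    exact (h1.zpow_right m).eq.symm

/-- **the alternating sum of the numbers of characters** -/
theorem KR_nK (hA : AW p red) {z : MonoidAlgebra k G}
    (hz : z ∈ Subalgebra.center k (MonoidAlgebra k G)) :
    ∑ s ∈ chains p G, (-1 : ℤ) ^ s.card *
        (Nat.card (stab s) * nK red (fun h : stab s => z.coeff h)) =
      Nat.card G * cnt red p (fun g => z.coeff g) ⊤ ⊥ := by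
  have := Fintype.ofFinite G
  simp only [card_mul_nK_sub hA hz, Finset.mul_sum]
  rw [Finset.sum_comm, Finset.sum_eq_single (1 : G), ← KR_numW red hz]
  · refine Finset.sum_congr rfl fun s _ => ?_
    have h1 : stab s ⊓ centralizer ({1} : Set G) = stab s :=
      inf_eq_left.2 fun x _ => by simp [mem_centralizer_singleton_iff]
    rw [if_pos (one_mem _), h1, FW]
  · intro u hu hu1
    obtain ⟨h1, h2, h3, -⟩ := zpowers_data (Finset.mem_filter.1 hu).2
    have h4 : zpowers u ≠ ⊥ := fun h => hu1 (zpowers_eq_bot.1 h)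
    simp only [mul_ite, mul_zero]
    rw [← Finset.sum_filter]
    refine sum_tog_eq_zero (zpowers u) _ (fun s hs => ?_)
      (fun s => FW p red z (stab s ⊓ centralizer ({u} : Set G))) fun s hs => ?_
    · rw [Finset.mem_filter, mem_chains] at hs ⊢
      have h5 : zpowers u ≤ stab s := zpowers_le.2 hs.2
      exact ⟨tog_isPChain hs.1 h1 h4 h5,
        (mem_stab_tog hs.1 h1 h4 h5 (h3 (h2 (mem_zpowers u)))).2 hs.2⟩
    · rw [Finset.mem_filter, mem_chains] at hs
      have h5 : zpowers u ≤ stab s := zpowers_le.2 hs.2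
      congr 1
      ext x
      rw [Subgroup.mem_inf, Subgroup.mem_inf]
      exact and_congr_left fun hx => mem_stab_tog hs.1 h1 h4 h5 (h3 hx)
  · intro h
    exact absurd (Finset.mem_filter.2 ⟨Finset.mem_univ _, 0, one_pow _⟩) h

omit hp [IsAlgClosed k] [CharP k p] in
theorem nK_congr {H H' : Type} [Group H] [Group H'] [Finite H] [Finite H'] (θ : H' ≃* H)
    {z : H → k} (hz : IsCF z) : nK red (fun x => z (θ x)) = nK red z := by
  unfold nK
  symm
  have hz' : IsCF (fun x => z (θ x)) := fun g x => by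
    simp only [map_mul, map_inv]
    exact hz _ _
  refine Nat.card_congr
    { toFun := fun χ => ⟨⟨fun x => χ.1.1 (θ x), χ.1.2.comp θ.toMonoidHom θ.surjective⟩,
        (lam_comp red θ χ.1.2 hz).trans χ.2⟩
      invFun := fun χ => ⟨⟨fun x => χ.1.1 (θ.symm x),
        χ.1.2.comp θ.symm.toMonoidHom θ.symm.surjective⟩, ?_⟩
      left_inv := fun χ => Subtype.ext (Subtype.ext (funext fun x => by simp))
      right_inv := fun χ => Subtype.ext (Subtype.ext (funext fun x => by simp)) }
  have h1 := lam_comp red θ.symm χ.1.2 hz'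
  simp only [θ.apply_symm_apply] at h1
  exact h1.trans χ.2

/-- the alternating sum over the classes of normal chains -/
theorem KR_nK_quot [Fintype (Quot (NChain.Conj (p := p) (G := G)))] (hA : AW p red)
    {z : MonoidAlgebra k G} (hz : z ∈ Subalgebra.center k (MonoidAlgebra k G)) :
    (nK red (fun g => z.coeff g) : ℤ) + ∑ c : Quot (NChain.Conj (p := p) (G := G)),
        (-1) ^ c.out.1.card * (nK red (fun h : stab c.out.1 => z.coeff h) : ℤ) =
      cnt red p (fun g => z.coeff g) ⊤ ⊥ := by
  have := Fintype.ofFinite G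
  have hcf := (P179C.mem_center_iff _).1 hz
  have h1 := card_mul_chainSum (p := p) (G := G) (fun H => (nK red (fun h : H => z.coeff h) : ℤ))
    (fun g s => by
      have h2 := nK_congr (red := red) (stabEquiv g s) (z := fun h : stab (g • s) => z.coeff h)
        (fun a b => hcf a b)
      rw [← h2]
      congr 2
      funext x
      exact hcf g x)
  rw [KR_nK hA hz] at h1
  have h4 : (Nat.card G : ℤ) ≠ 0 := by exact_mod_cast Nat.card_pos.ne'
  rw [← mul_left_cancel₀ h4 h1, ← nK_congr (red := red) (topEquiv (G := G)) hcf]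
  rfl

omit hp [IsAlgClosed k] [CharP k p] in
theorem cnt_top_bot {z : G → k} (hz : IsCF z) : cnt red p z ⊤ ⊥ =
    Nat.card {χ : G → ℂ // IsDefectZeroChar p χ ∧ lam red χ z = 1} := by
  unfold cnt
  refine Nat.card_congr (Equiv.subtypeEquivRight fun χ => ?_)
  let θ : G ≃* (⊤ : Subgroup G) := topEquiv.symm
  have hc : Nat.card (⊤ : Subgroup G) = Nat.card G :=
    Nat.card_congr (topEquiv (G := G)).toEquiv
  constructor
  · rintro ⟨-, h3, -, ⟨d, hd1, hd2⟩, h5⟩
    have hirr : IsIrrChar χ := h3.comp θ.toMonoidHom θ.surjective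
    refine ⟨⟨hirr, d, hd1, ?_⟩, ?_⟩
    · rw [← hc, ← hd2]
      simp
    · rw [← h5]
      exact (lam_comp red (topEquiv (G := G)) hirr hz).symm
  · rintro ⟨⟨hirr, d, hd1, hd2⟩, h5⟩
    refine ⟨fun x hx => absurd (mem_top x) hx,
      hirr.comp (topEquiv (G := G)).toMonoidHom (topEquiv (G := G)).surjective, ?_, ⟨d, hd1, ?_⟩,
      (lam_comp red (topEquiv (G := G)) hirr hz).trans h5⟩
    · intro r hr x
      rw [mem_bot.1 hr, mul_one]
    · rw [hc, ← hd2]
      simp

omit hp [Finite G] in
theorem norm_map_conj (D : Subgroup G) (g : G) :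
    normalizer ((D.map (MulAut.conj g).toMonoidHom : Subgroup G) : Set G) =
      (normalizer (D : Set G)).map (MulAut.conj g).toMonoidHom := by
  ext x
  rw [mem_normalizer_map, Subgroup.mem_map_equiv]

omit hp [IsAlgClosed k] [CharP k p] in
theorem FW_top {z : MonoidAlgebra k G} (hz : z ∈ Subalgebra.center k (MonoidAlgebra k G)) :
    FW p red z ⊤ = Nat.card G * numW p red z := by
  rw [FW, Nat.card_congr (topEquiv (G := G)).toEquiv,
    numW_congr red (topEquiv (G := G)) hz fun x => by rw [coeff_trunc]; rfl]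

/-- **Alperin's lower bound** -/
theorem numSimple_le (hA : AW p red) {B : MonoidAlgebra k G} (hB : IsBlock B) {D : Subgroup G}
    (hD : IsDefectGroup B D) :
    numSimpleIn (trunc (normalizer (D : Set G)) B) ≤ numSimpleIn B ∧
      ((∀ a ∈ D, ∀ b ∈ D, a * b = b * a) →
        numSimpleIn (trunc (normalizer (D : Set G)) B) = numSimpleIn B) := by
  have := Fintype.ofFinite G
  have := Fintype.ofFinite (Subgroup G)
  obtain ⟨h1, h2⟩ := FW_ge red hB hD ⊤
  simp only [le_top, if_true, inf_top_eq] at h1 h2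
  have h3 := sum_orb D (fun R => FW p red B (normalizer (R : Set G))) fun g => by
    rw [norm_map_conj, FW_conj red hB.1]
  rw [FW_top hB.1, ← hA.central hB.1] at h1 h2
  have h4 : (Nat.card G : ℤ) * FW p red B (normalizer (D : Set G)) =
      Nat.card (normalizer (D : Set G)) *
        (Nat.card G * numSimpleIn (trunc (normalizer (D : Set G)) B)) := by
    rw [FW, ← hA.central (trunc_mem _ hB.1)]
    ring
  have hN : (0 : ℤ) < Nat.card (normalizer (D : Set G)) := by exact_mod_cast Nat.card_pos
  have hG : (0 : ℤ) < Nat.card G := by exact_mod_cast Nat.card_pos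
  rw [h4] at h3
  rw [mul_left_cancel₀ hN.ne' h3] at h1 h2
  refine ⟨by exact_mod_cast le_of_mul_le_mul_left h1 hG, fun hab => ?_⟩
  have h5 := h2 fun w hw => conj_of_in red hB hD hab (M := ⊥) IsPGroup.of_bot bot_le
    (fun x _ => by rw [normalizer_eq_top_iff.2 inferInstance]; exact mem_top x) le_top w hw
  exact_mod_cast mul_left_cancel₀ hG.ne' h5

/-- abelian defect groups: only the `p`-elements centralising `D` matter in `N_G(D)` -/
theorem FW_vanish (hA : AW p red) {B : MonoidAlgebra k G} (hB : IsBlock B) {D : Subgroup G}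
    (hD : IsDefectGroup B D) (hab : ∀ a ∈ D, ∀ b ∈ D, a * b = b * a)
    (u : normalizer (D : Set G)) (hu : ∃ a : ℕ, u ^ p ^ a = 1)
    (h : FW p red B (normalizer (D : Set G) ⊓ centralizer ({(u : G)} : Set G)) ≠ 0) :
    D ≤ centralizer ({(u : G)} : Set G) := by
  have := Fintype.ofFinite G
  have hDp := isPGroup_defect (p := p) hB hD
  rw [← FW_inf hA hB.1] at h
  obtain ⟨r, μ, hμ1, -⟩ := exists_L p (k := k)
    (G := centralizer ({u} : Set (normalizer (D : Set G))))
  rw [hμ1 _ (trunc_mem _ (trunc_mem _ hB.1))] at h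
  obtain ⟨i, hi⟩ := (Nat.card_ne_zero.1 (right_ne_zero_of_mul (Int.natCast_ne_zero.1 h))).1
  obtain ⟨h1, h2, h3, h4⟩ := zpowers_data hu
  obtain ⟨b', hb', hbl'⟩ := homBlockStmt (μ i)
  obtain ⟨b, hb, hbl⟩ := homBlockStmt (resHom (p := p) _ _ h1 h2 h3 h4 (μ i))
  have hbB : InducesTo b B :=
    (inducesTo_iff hDp le_normalizer le_rfl (cent_le_norm D) hb hB).1
      ((hbl ⟨_, trunc_mem _ hB.1⟩).symm.trans hi)
  have hb'b : InducesTo b' b := fun z hz =>
    (hbl' ⟨_, trunc_mem _ hz⟩).symm.trans (hbl ⟨z, hz⟩)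
  obtain ⟨E, hE⟩ := exists_defect hb'
  obtain ⟨g, hg⟩ := defect_conj p hb (defect_corr (p := p) hB hD hb hbB)
    (fun a ha c hc => Subtype.ext (hab _ (mem_subgroupOf.1 ha) _ (mem_subgroupOf.1 hc)))
    hb' hb'b hE (cent_defect_le' h1 h2 h3 h4 hb' hE)
  intro d hd
  have h5 : g⁻¹ * ⟨d, le_normalizer hd⟩ * g ∈ D.subgroupOf (normalizer (D : Set G)) := by
    rw [mem_subgroupOf]
    have h6 := (mem_normalizer_iff.1 (inv_mem g.2) d).1 hd
    rw [inv_inv] at h6
    exact h6
  obtain ⟨e, -, he⟩ := (hg _).2 h5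
  have h7 := mem_centralizer_singleton_iff.1 e.2
  have h8 : (e : normalizer (D : Set G)) = ⟨d, le_normalizer hd⟩ := he
  rw [h8] at h7
  exact mem_centralizer_singleton_iff.2 (congrArg Subtype.val h7)

/-- **abelian defect groups: the numbers of ordinary characters agree** -/
theorem nK_eq (hA : AW p red) {B : MonoidAlgebra k G} (hB : IsBlock B) {D : Subgroup G}
    (hD : IsDefectGroup B D) (hab : ∀ a ∈ D, ∀ b ∈ D, a * b = b * a) :
    nK red (fun n : normalizer (D : Set G) => B.coeff n) = nK red (fun g => B.coeff g) := by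
  have := Fintype.ofFinite G
  have := Fintype.ofFinite (Subgroup G)
  let T : Subgroup G → ℤ := fun R => ∑ u ∈ univ.filter (fun u : G => ∃ a : ℕ, u ^ p ^ a = 1),
    if R ≤ centralizer ({u} : Set G) then
      FW p red B (normalizer (R : Set G) ⊓ centralizer ({u} : Set G)) else 0
  have h1 : (Nat.card (normalizer (D : Set G)) : ℤ) *
      nK red (fun n : normalizer (D : Set G) => B.coeff n) = T D := by
    rw [card_mul_nK_sub hA hB.1]
    refine Finset.sum_congr rfl fun u hu => ?_
    obtain ⟨a, ha⟩ := (Finset.mem_filter.1 hu).2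
    by_cases h : D ≤ centralizer ({u} : Set G)
    · rw [if_pos h, if_pos]
      refine cent_le_norm D (mem_centralizer_iff.2 fun d hd => ?_)
      exact mem_centralizer_singleton_iff.1 (h hd)
    · rw [if_neg h]
      split_ifs with h'
      · by_contra h0
        exact h (FW_vanish hA hB hD hab ⟨u, h'⟩ ⟨a, Subtype.ext ha⟩ h0)
      · rfl
  have h2 : (Nat.card G : ℤ) * nK red (fun g => B.coeff g) = ∑ R ∈ orb D, T R := by
    rw [← Nat.cast_mul, card_mul_nK (p := p) red hB.1, Nat.cast_sum, Finset.sum_comm]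
    refine Finset.sum_congr rfl fun u hu => ?_
    obtain ⟨a1, a2, a3, a4⟩ := zpowers_data (Finset.mem_filter.1 hu).2
    rw [(FW_ge red hB hD _).2 fun w hw => conj_of_in red hB hD hab a1 a2 a3 a4 w hw, FW,
      hA.central (trunc_mem _ hB.1), Nat.cast_mul]
  have h3 := sum_orb D T fun g => by
    symm
    refine Finset.sum_equiv (MulAut.conj g).toEquiv (fun u => ?_) fun u _ => ?_
    · simp only [Finset.mem_filter, Finset.mem_univ, true_and]
      refine exists_congr fun a => ?_
      change _ ↔ (MulAut.conj g u) ^ p ^ a = 1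
      rw [← map_pow, map_eq_one_iff _ (MulAut.conj g).injective]
    · have e1 : centralizer ({(MulAut.conj g).toEquiv u} : Set G) =
          (centralizer ({u} : Set G)).map (MulAut.conj g).toMonoidHom := by
        ext x
        rw [Subgroup.mem_map_equiv, mem_centralizer_singleton_iff, mem_centralizer_singleton_iff,
          MulAut.conj_symm_apply]
        change x * (g * u * g⁻¹) = g * u * g⁻¹ * x ↔ _
        constructor
        · intro h
          calc g⁻¹ * x * g * u = g⁻¹ * (x * (g * u * g⁻¹)) * g := by group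
            _ = u * (g⁻¹ * x * g) := by rw [h]; group
        · intro h
          calc x * (g * u * g⁻¹) = g * (g⁻¹ * x * g * u) * g⁻¹ := by group
            _ = g * u * g⁻¹ * x := by rw [h]; group
      rw [e1, norm_map_conj, ← Subgroup.map_inf _ _ _ (MulAut.conj g).injective,
        FW_conj red hB.1]
      simp only [map_le_map_iff_of_injective (f := (MulAut.conj g).toMonoidHom)
        (MulAut.conj g).injective]
  have hN : (Nat.card (normalizer (D : Set G)) : ℤ) ≠ 0 := by exact_mod_cast Nat.card_pos.ne'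
  have hG : (Nat.card G : ℤ) ≠ 0 := by exact_mod_cast Nat.card_pos.ne'
  rw [← h1, ← h2, mul_left_comm] at h3
  exact_mod_cast (mul_left_cancel₀ hN (mul_left_cancel₀ hG h3)).symm

end P179A0
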