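import Vale.Agent.N179.Top

/-!
# The blockwise Alperin weight conjecture, the Brauer correspondent and the alternating sums
-/

open Subgroup P179H524 P179B P179A0

theorem Vale.Agent.N179.oldBrauerCorrespondent (p : ℕ) [Fact p.Prime]
    (k : Type*) [Field k] [IsAlgClosed k] [CharP k p] :
    Nonempty (integralClosure ℤ ℂ →+* k) ∧
    (∀ (red : integralClosure ℤ ℂ →+* k) (G : Type*) [Group G] [Finite G]
      (B : MonoidAlgebra k G), IsBlock B →
      numSimpleIn B = numWeightsIn p red B ∧ 0 < numSimpleIn B) ∧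
    (∀ (red : integralClosure ℤ ℂ →+* k) (G : Type) [Group G] [Finite G]
      (B : MonoidAlgebra k G), IsBlock B → (∃ D, IsDefectGroup B D) ∧
      ∀ D : Subgroup G, IsDefectGroup B D →
        (∃! b : MonoidAlgebra k (normalizer (D : Set G)), IsBlock b ∧ InducesTo b B) ∧
        (∀ b : MonoidAlgebra k (normalizer (D : Set G)), IsBlock b → InducesTo b B →
          numSimpleIn b ≤ numSimpleIn B ∧
          ((∀ x ∈ D, ∀ y ∈ D, x * y = y * x) →
            numSimpleIn b = numSimpleIn B ∧ numCharsIn red b = numCharsIn red B)) ∧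
        (D ≠ ⊥ →
          numSimpleIn B + chainSum p (fun H : Subgroup G => numSimpleOver H B) = 0 ∧
          numCharsIn red B + chainSum p (fun H : Subgroup G => numCharsOver red H B) = 0)) ∧
    ∀ (G : Type) [Group G] [Finite G],
      Nat.card {c : ConjClasses G // ∀ g ∈ c.carrier, ¬ p ∣ orderOf g} = numWeights p G ∧
      (Nat.card {χ : G → ℂ // IsDefectZeroChar p χ} : ℤ) = Nat.card (ConjClasses G) +
        chainSum p (fun H : Subgroup G => Nat.card (ConjClasses H)) :=
  ⟨(awc.{_, 0} p k).1, (awc p k).2, fun red _ _ _ _ hB => ⟨P179H725.exists_defect hB,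
    fun _ hD => ⟨(corr (aw p red) hB hD).1, (corr (aw p red) hB hD).2,
      alt_block (aw p red) hB hD⟩⟩,
    fun _ _ _ => counts (aw p (awc.{_, 0} p k).1.some)⟩
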