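import Vale.Agent.N179.Final
import Vale.Agent.P179W.FinalA
import Vale.Agent.P179W.SetupF
import Vale.Agent.P179W.RetE
import Vale.Agent.P179W.RetU
import Vale.Agent.P179W.RetCount
import Vale.Agent.P179W.Wild
import Vale.Agent.P179W.BetaF
import Vale.Agent.P179W.AmbVal2
import Vale.Agent.P179R.Ana

/-!
# The weight conjecture and its consequences
-/

namespace P179A0

open Subgroup P179H524 P179B P179W

universe u v

theorem awc (p : ℕ) [Fact p.Prime] (k : Type u) [Field k] [IsAlgClosed k] [CharP k p] :
    Nonempty (integralClosure ℤ ℂ →+* k) ∧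
    ∀ (red : integralClosure ℤ ℂ →+* k) (G : Type v) [Group G] [Finite G]
      (B : MonoidAlgebra k G), IsBlock B →
      numSimpleIn B = numWeightsIn p red B ∧ 0 < numSimpleIn B :=
  awc_of' setup_holds
    (retE_of (retU_of Vale.Agent.P179R.ret valExt_holds tame_holds arch_holds trans_holds)
      count_holds)
    (wild_of (horiz_of dw_holds)) beta_holds p k

theorem aw (p : ℕ) [Fact p.Prime] {k : Type u} [Field k] [IsAlgClosed k] [CharP k p]
    (red : integralClosure ℤ ℂ →+* k) : AW p red := fun G _ _ B hB => by
  rw [← numSimpleIn_eq, ← numWeightsIn_eq]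
  exact ((awc.{u, 0} p k).2 red G B hB).1

end P179A0
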